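import Vale.Agent.P011.D4Y.Defs
import Vale.Agent.P011.D4Y.H64.Odd

/-!
Block D4W: trialitarian groups of a noncyclic cubic extension, without a condition at the primes of
even local degree.

`Bad a q w`: the primes `w` of `L` of even local degree where `(a, q)` is ramified.
-/

open NumberField IsDedekindDomain

namespace Vale.Agent.P011.D4W

open Vale.Agent.P011.Arith Vale.Agent.P011.MPQ Vale.Agent.P011.D4 Vale.Agent.P011.D4X
  Vale.Agent.P011.D4Y

variable {k L : Type} [Field k] [NumberField k] [Field L] [NumberField L] [Algebra k L]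

/-- The primes `w` of `L` of even local degree, over `v`, where `(a, q)` is ramified. -/
def Bad (a : kˣ) (q : Lˣ) (v : HeightOneSpectrum (𝓞 k)) (w : HeightOneSpectrum (𝓞 L)) : Prop :=
  w.asIdeal.comap (algebraMap (𝓞 k) (𝓞 L)) = v.asIdeal ∧ Ram (up L a) q w ∧ ¬ OddP w v

/-- The elements which are local norms from `L(√a)` at the primes of even local degree where
`(a, q)` is ramified. -/
def NV (k : Type) {L : Type} [Field k] [NumberField k] [Field L] [NumberField L] [Algebra k L]
    (a : kˣ) (q : Lˣ) : Subgroup Lˣ where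
  carrier := {κ | ∀ (v : HeightOneSpectrum (𝓞 k)) (w : HeightOneSpectrum (𝓞 L)), Bad a q v w →
    κ ∈ NF (up L a) ⊔ LS (w.valuation L)}
  mul_mem' hx hy v w h := mul_mem (hx v w h) (hy v w h)
  one_mem' _ _ _ := one_mem _
  inv_mem' hx v w h := inv_mem (hx v w h)

theorem mem_NV {a : kˣ} {q κ : Lˣ} : κ ∈ NV k a q ↔
    ∀ (v : HeightOneSpectrum (𝓞 k)) (w : HeightOneSpectrum (𝓞 L)), Bad a q v w →
      κ ∈ NF (up L a) ⊔ LS (w.valuation L) := Iff.rfl

end Vale.Agent.P011.D4W
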