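import Vale.Agent.P011.D4W.H7.Main
import Vale.Agent.P011.D4W.H619.StepT

/-!
Block D4W: trialitarian groups of noncyclic cubic extensions with arbitrary Tits class.
-/

open Module NumberField

namespace Vale.Agent.P011.D4W

open Vale.Agent.P011.MPQ Vale.Agent.P011.D4 Vale.Agent.P011.D4T Vale.Agent.P011.D4I
  Vale.Agent.P011.D4H

/-- **The trialitarian groups of noncyclic cubic extensions** have no proper subgroup of finite
index. -/
theorem ti_noIndex {k L E : Type} [Field k] [NumberField k] [Field L] [NumberField L] [Field E]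
    [Algebra k L] [Algebra k E] [Algebra L E] [IsScalarTower k L E] {ρ σ ι : E ≃ₐ[k] E} {α : E}
    {a b c : kˣ} {q : Lˣ} (H : IsDataIR ρ σ ι α a b c q) :
    NoIndex (TI ρ σ ι α (algebraMap L E (q : L)) a b c) :=
  H7.ti_noIndex_of_swap (H619.leSwap (H7.shortAll k L)) H

end Vale.Agent.P011.D4W
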